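import Mathlib

/-!
# Row 221, toolbox: `(∇_v R)(·,v)v = 0` for all `v` implies `∇ R = 0` (pure algebra, helper25)

`e u X Y Z W` stands for `⟪(∇_u II)(X,Y), II(Z,W)⟫`, `D e u X Y Z W` for `(∇_u R)(X,Y,Z,W)`.
-/

set_option autoImplicit false

namespace Crest.Agent.N221.PAlg

variable {V : Type*}

/-- the derivative of the Gauss expression -/
def D (e : V → V → V → V → V → ℝ) (u X Y Z W : V) : ℝ :=
  e u X W Y Z + e u Y Z X W - e u X Z Y W - e u Y W X Z

theorem alg [AddCommGroup V] (e : V → V → V → V → V → ℝ)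
    (a1 : ∀ u u' X Y Z W, e (u + u') X Y Z W = e u X Y Z W + e u' X Y Z W)
    (a5 : ∀ u X Y Z W W', e u X Y Z (W + W') = e u X Y Z W + e u X Y Z W')
    (s12 : ∀ u X Y Z W, e u X Y Z W = e X u Y Z W)
    (s23 : ∀ u X Y Z W, e u X Y Z W = e u Y X Z W)
    (s45 : ∀ u X Y Z W, e u X Y Z W = e u X Y W Z)
    (H : ∀ v w, D e v w v v w = 0) (u X Y Z W : V) : D e u X Y Z W = 0 := by
  have a2 : ∀ u X X' Y Z W, e u (X + X') Y Z W = e u X Y Z W + e u X' Y Z W := by
    intro u X X' Y Z W
    rw [s12, a1, s12 X, s12 X']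
  have a3 : ∀ u X Y Y' Z W, e u X (Y + Y') Z W = e u X Y Z W + e u X Y' Z W := by
    intro u X Y Y' Z W
    rw [s23, a2, s23 u Y, s23 u Y']
  have a4 : ∀ u X Y Z Z' W, e u X Y (Z + Z') W = e u X Y Z W + e u X Y Z' W := by
    intro u X Y Z Z' W
    rw [s45, a5, s45 u X Y W, s45 u X Y W]
  have b1 : ∀ u u' X Y Z W, D e (u + u') X Y Z W = D e u X Y Z W + D e u' X Y Z W := by
    intro u u' X Y Z W; simp only [D, a1]; ring
  have b2 : ∀ u X X' Y Z W, D e u (X + X') Y Z W = D e u X Y Z W + D e u X' Y Z W := by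
    intro u X X' Y Z W; simp only [D, a2, a4]; ring
  have b3 : ∀ u X Y Y' Z W, D e u X (Y + Y') Z W = D e u X Y Z W + D e u X Y' Z W := by
    intro u X Y Y' Z W; simp only [D, a2, a4]; ring
  have b4 : ∀ u X Y Z Z' W, D e u X Y (Z + Z') W = D e u X Y Z W + D e u X Y Z' W := by
    intro u X Y Z Z' W; simp only [D, a3, a5]; ring
  have b5 : ∀ u X Y Z W W', D e u X Y Z (W + W') = D e u X Y Z W + D e u X Y Z W' := by
    intro u X Y Z W W'; simp only [D, a3, a5]; ring
  have k12 : ∀ u X Y Z W, D e u X Y Z W = -D e u Y X Z W := by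
    intro u X Y Z W; simp only [D]; ring
  have k34 : ∀ u X Y Z W, D e u X Y Z W = -D e u X Y W Z := by
    intro u X Y Z W; simp only [D]; ring
  have pair : ∀ u X Y Z W, D e u X Y Z W = D e u Z W X Y := by
    intro u X Y Z W
    simp only [D]
    rw [s23 u Z Y, s45 u Y Z W, s23 u W X, s45 u X W Z, s23 u Z X, s45 u X Z W, s23 u W Y,
      s45 u Y W Z]
    ring
  have B1 : ∀ u X Y Z W, D e u X Y Z W + D e u Y Z X W + D e u Z X Y W = 0 := by
    intro u X Y Z W
    simp only [D]
    rw [s45 u Y W Z X, s23 u Z X, s23 u Y X, s45 u Z W Y X, s23 u Z Y, s45 u X W Z Y]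
    ring
  have B2 : ∀ u X Y Z W, D e u X Y Z W + D e X Y u Z W + D e Y u X Z W = 0 := by
    intro u X Y Z W
    simp only [D]
    rw [s12 X u, s12 X u, s12 Y u, s12 Y u, s12 Y X, s12 Y X]
    ring
  -- partial polarisation of the cubic form `v ↦ D v w v v w`
  have P1 : ∀ u v w, D e u w v v w + D e v w u v w + D e v w v u w = 0 := by
    intro u v w
    have h1 := H (v + u) w
    have h2 := H (v + v + u) w
    simp only [b1, b3, b4] at h1 h2
    linarith [H v w, H u w]
  have K : ∀ u v w, D e u w v v w = 0 := by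
    intro u v w
    have h1 := P1 u v w
    have h2 := P1 u w v
    have h3 := B2 u w v v w
    linarith [pair v w v u w, k12 v u w w v, k34 v w u w v, pair w v w u v, k12 w u v v w,
      k34 w v u v w, k12 u v w w v, k34 u w v w v, k12 v u w v w, k34 v w u v w,
      k12 w v u v w, k12 w v u w v, k34 w u v w v]
  have K1 : ∀ u v w w', D e u w v v w' = 0 := by
    intro u v w w'
    have h1 := K u v (w + w')
    simp only [b2, b5] at h1
    linarith [K u v w, K u v w', pair u w' v v w, k12 u v w w' v, k34 u w v w' v]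
  have k23 : ∀ u X Y Z W, D e u X Y Z W = -D e u X Z Y W := by
    intro u X Y Z W
    have h1 := K1 u (Y + Z) X W
    simp only [b3, b4] at h1
    linarith [K1 u Y X W, K1 u Z X W]
  linarith [B1 u X Y Z W, k23 u Y Z X W, k12 u Y X Z W, k12 u Z X Y W, k23 u X Z Y W]

end Crest.Agent.N221.PAlg
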