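import Crest.Agent.N221.Defs
import Crest.Agent.N221.P.Alg

/-!
# Row 221, toolbox: `Par G ↔ CurvatureParallel n N S` (helper25)
-/

set_option autoImplicit false

open Set Filter Topology
open scoped ContDiff RealInnerProductSpace
open Crest.GeometryTopology.Submanifold
open Crest.Agent.R241.DDefs Crest.Agent.R241.D2
open Crest.Agent.R208 Crest.Agent.R208.J Crest.Agent.R208.L

noncomputable section

namespace Crest.Agent.N221

namespace PPar

variable {n N : ℕ} {κ : ℝ} {S : Set (Euc N)} (G : Geo n N κ S)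

/-- derivative of `II (X, Y)` for parallel `X, Y` along the geodesic with velocity `u` -/
def dII (x u A B : Euc N) : Euc N :=
  fderiv ℝ (fderiv ℝ G.P) x u A B + II G x (II G x u A) B + II G x A (II G x u B)

/-- `⟪(∇_u II)(A,B), II(C,E)⟫` -/
def ee (x u A B C E : Euc N) : ℝ := ⟪dII G x u A B, II G x C E⟫

variable {G}

lemma hasDerivAt_II {q : TT N} (hq : q ∈ TS G) {A B : Euc N} (hA : A ∈ G.T q.1)
    (hB : B ∈ G.T q.1) (t : ℝ) :
    HasDerivAt (fun s => II G (fl G (q, s)).1 (PT G q s A) (PT G q s B))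
      (dII G (fl G (q, t)).1 (fl G (q, t)).2 (PT G q t A) (PT G q t B)) t := by
  have hm := fl_mem G hq t
  have h0 : ContDiff ℝ ∞ (fderiv ℝ G.P) := G.contDiff_P.fderiv_right (by simp)
  have h1 : HasDerivAt (fun s => fderiv ℝ G.P (fl G (q, s)).1)
      (fderiv ℝ (fderiv ℝ G.P) (fl G (q, t)).1 (fl G (q, t)).2) t :=
    (h0.differentiable (by simp) _).hasFDerivAt.comp_hasDerivAt t
      (hda_fst (hasDerivAt_fl G (complete G hq t)))
  have h2 := hasDerivAt_PT_apply hq t A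
  have h3 := hasDerivAt_PT_apply hq t B
  rw [Om_tangent hm (PT_mem hq t hA)] at h2
  rw [Om_tangent hm (PT_mem hq t hB)] at h3
  exact (h1.clm_apply h2).clm_apply h3

lemma dII_symm {x u A B : Euc N} (hx : x ∈ S) (hu : u ∈ G.T x) (hA : A ∈ G.T x)
    (hB : B ∈ G.T x) : dII G x u A B = dII G x u B A := by
  have hq : (x, u) ∈ TS G := ⟨hx, hu⟩
  have h1 := hasDerivAt_II hq hA hB 0
  have h2 := hasDerivAt_II hq hB hA 0
  have h3 : (fun s => II G (fl G ((x, u), s)).1 (PT G (x, u) s A) (PT G (x, u) s B)) =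
      fun s => II G (fl G ((x, u), s)).1 (PT G (x, u) s B) (PT G (x, u) s A) :=
    funext fun s => II_symm G (fl_mem G hq s).1 (PT_mem hq s hA) (PT_mem hq s hB)
  rw [h3] at h1
  simpa [fl_zero] using h1.unique h2

lemma ee_s12 {x u A B C E : Euc N} (hx : x ∈ S) (hu : u ∈ G.T x) (hA : A ∈ G.T x)
    (hB : B ∈ G.T x) (hC : C ∈ G.T x) (hE : E ∈ G.T x) : ee G x u A B C E = ee G x A u B C E := by
  have key : ∀ a ∈ G.T x, ∀ b ∈ G.T x, ⟪II G x a (II G x b B), II G x C E⟫ = 0 := by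
    intro a ha b hb
    have h1 : G.P x (II G x a (II G x b B)) = II G x a (II G x b B) :=
      P_dP_normal hx ha (II_normal G hx hb hB)
    rw [← h1, inner_P_left G hx, II_normal G hx hC hE, inner_zero_right]
  have hs : fderiv ℝ (fderiv ℝ G.P) x u A = fderiv ℝ (fderiv ℝ G.P) x A u :=
    (G.contDiff_P.contDiffAt.isSymmSndFDerivAt (n := ∞) Crest.Agent.R241.D3b.min_le).eq u A
  simp only [ee, dII, inner_add_left]
  rw [key A hA u hu, key u hu A hA, hs, II_symm G hx hu hA]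

lemma hasDerivAt_R4 {q : TT N} (hq : q ∈ TS G) {A B C E : Euc N} (hA : A ∈ G.T q.1)
    (hB : B ∈ G.T q.1) (hC : C ∈ G.T q.1) (hE : E ∈ G.T q.1) (t : ℝ) :
    HasDerivAt (fun s => R4 G (fl G (q, s)).1 (PT G q s A) (PT G q s B) (PT G q s C) (PT G q s E))
      (PAlg.D (ee G (fl G (q, t)).1) (fl G (q, t)).2 (PT G q t A) (PT G q t B) (PT G q t C)
        (PT G q t E)) t := by
  refine (((hasDerivAt_II hq hA hE t).inner ℝ (hasDerivAt_II hq hB hC t)).sub
    ((hasDerivAt_II hq hA hC t).inner ℝ (hasDerivAt_II hq hB hE t))).congr_deriv ?_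
  simp only [PAlg.D, ee]
  rw [real_inner_comm (dII G _ _ (PT G q t B) (PT G q t C)),
    real_inner_comm (dII G _ _ (PT G q t B) (PT G q t E))]
  ring

lemma inner_Rh_eq {q : TT N} (hq : q ∈ TS G) {w w' : Euc N} (hw : w ∈ G.T q.1) (t : ℝ) :
    ⟪Rh G q t w, w'⟫ =
      R4 G (fl G (q, t)).1 (PT G q t w) (PT G q t q.2) (PT G q t q.2) (PT G q t w') := by
  have hm := fl_mem G hq t
  rw [Rh_apply, inner_PTi_left, inner_Rm_tangent hm (PT_mem hq t hw), PT_velocity hq, R4,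
    II_symm G hm.1 (PT_mem hq t hw) hm.2, real_inner_comm]
  rfl

lemma D_smul (x v w : Euc N) (r : ℝ) :
    PAlg.D (ee G x) (r • v) w (r • v) (r • v) w = r ^ 3 * PAlg.D (ee G x) v w v v w := by
  simp only [PAlg.D, ee, dII, II, map_smul, smul_apply, ← smul_add,
    real_inner_smul_left, real_inner_smul_right]
  ring

lemma D_eq_zero (h : Par G) {x u A B C E : Euc N} (hx : x ∈ S) (hu : u ∈ G.T x)
    (hA : A ∈ G.T x) (hB : B ∈ G.T x) (hC : C ∈ G.T x) (hE : E ∈ G.T x) :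
    PAlg.D (ee G x) u A B C E = 0 := by
  have h1 : ∀ v ∈ G.T x, ‖v‖ = 1 → ∀ w ∈ G.T x, PAlg.D (ee G x) v w v v w = 0 := by
    intro v hv h1 w hw
    have hq : (x, v) ∈ TS G := ⟨hx, hv⟩
    have h2 := hasDerivAt_R4 hq hw hv hv hw 0
    have h3 : (fun s => R4 G (fl G ((x, v), s)).1 (PT G (x, v) s w) (PT G (x, v) s v)
        (PT G (x, v) s v) (PT G (x, v) s w)) = fun _ => ⟪Rm G (x, v) w, w⟫ :=
      funext fun s => by rw [← h (x, v) ⟨hq, h1⟩ s, inner_Rh_eq hq hw]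
    rw [h3] at h2
    simpa [fl_zero] using h2.unique (hasDerivAt_const _ _)
  have h2 : ∀ v ∈ G.T x, ∀ w ∈ G.T x, PAlg.D (ee G x) v w v v w = 0 := by
    intro v hv w hw
    rcases eq_or_ne v 0 with h0 | h0
    · have := D_smul (G := G) x v w 0
      rw [zero_smul] at this
      rw [h0, this]; simp
    · have h3 := h1 (‖v‖⁻¹ • v) ((G.T x).smul_mem _ hv) (norm_smul_inv_norm h0) w hw
      rw [D_smul] at h3
      exact (mul_eq_zero.1 h3).resolve_left (pow_ne_zero _ (inv_ne_zero (norm_ne_zero_iff.2 h0)))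
  refine PAlg.alg (V := G.T x) (fun u A B C E => ee G x u A B C E) ?_ ?_ ?_ ?_ ?_
    (fun v w => h2 v v.2 w w.2) ⟨u, hu⟩ ⟨A, hA⟩ ⟨B, hB⟩ ⟨C, hC⟩ ⟨E, hE⟩
  · intro u u' A B C E
    simp only [ee, dII, II, Submodule.coe_add, map_add, add_apply,
      inner_add_left]
    ring
  · intro u A B C E E'
    simp only [ee, II, Submodule.coe_add, map_add, inner_add_right]
  · intro u A B C E
    exact ee_s12 hx u.2 A.2 B.2 C.2 E.2
  · intro u A B C E
    simp only [ee]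
    rw [dII_symm hx u.2 A.2 B.2]
  · intro u A B C E
    simp only [ee]
    rw [II_symm G hx C.2 E.2]

lemma tan_eq (hS : IsSubmanifold n N S) {x : Euc N} (hx : x ∈ S) :
    tangentSpaceAt S x = G.T x := by
  rw [T_eq_Tan G hx, ← span_tangentConeAt hS hx]
  rfl

lemma parallel_eq (hS : IsSubmanifold n N S) {q : TT N} (hq : q ∈ TS G) {Y : ℝ → Euc N}
    (hY : IsParallelAlong S (fun t => (fl G (q, t)).1) Y) :
    Y 0 ∈ G.T q.1 ∧ ∀ t, Y t = PT G q t (Y 0) := by
  have hm : ∀ t, Y t ∈ G.T (fl G (q, t)).1 := fun t => by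
    rw [← tan_eq hS (fl_mem G hq t).1]; exact hY.2.1 t
  refine ⟨by simpa [fl_zero] using hm 0, eq_PT hq fun t => ?_⟩
  have h0 := fl_mem G hq t
  have h1 := hasDerivAt_deriv_of_contDiff hY.1 t
  have h2 := (hasDerivAt_P_comp G (hda_fst (hasDerivAt_fl G (complete G hq t)))).clm_apply h1
  have h3 : (fun s => G.P (fl G (q, s)).1 (Y s)) = Y :=
    funext fun s => (P_eq_self G (fl_mem G hq s).1).1 (hm s)
  have h4 : G.P (fl G (q, t)).1 (deriv Y t) = 0 := by
    rw [← P_eq_zero G h0.1, ← tan_eq hS h0.1]; exact hY.2.2 t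
  rw [h3, h4, add_zero] at h2
  rw [Om_tangent h0 (hm t)]
  exact h2

lemma parallel_PT (hS : IsSubmanifold n N S) {q : TT N} (hq : q ∈ TS G) {w : Euc N}
    (hw : w ∈ G.T q.1) : IsParallelAlong S (fun t => (fl G (q, t)).1) fun t => PT G q t w := by
  refine ⟨(contDiff_PT hq).clm_apply contDiff_const, fun t => ?_, fun t => ?_⟩
  · rw [tan_eq (G := G) hS (fl_mem G hq t).1]; exact PT_mem hq t hw
  · have h0 := fl_mem G hq t
    rw [tan_eq (G := G) hS h0.1, (hasDerivAt_PT_apply hq t w).deriv, P_eq_zero G h0.1,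
      Om_tangent h0 (PT_mem hq t hw)]
    exact dP_tangent_normal h0 (PT_mem hq t hw)

end PPar

open PPar in
theorem parS (hR : RiemS) : ParS := by
  intro n N κ S G hS
  constructor
  · intro h γ Y Z W U hγ hY hZ hW hU
    obtain ⟨q, hq, hγq⟩ := (isGeodesicIn_iff hS G).1 hγ
    obtain rfl : γ = fun t => (fl G (q, t)).1 := funext hγq
    obtain ⟨y0, y1⟩ := parallel_eq hS hq hY
    obtain ⟨z0, z1⟩ := parallel_eq hS hq hZ
    obtain ⟨w0, w1⟩ := parallel_eq hS hq hW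
    obtain ⟨u0, u1⟩ := parallel_eq hS hq hU
    have hd := fun t => (hasDerivAt_R4 hq y0 z0 w0 u0 t).congr_deriv
      (D_eq_zero h (fl_mem G hq t).1 (fl_mem G hq t).2 (PT_mem hq t y0) (PT_mem hq t z0)
        (PT_mem hq t w0) (PT_mem hq t u0))
    refine ⟨_, fun t f V hf => Eq.trans ?_ (eq_of_hasDerivAt_zero hd t)⟩
    rw [y1 t, z1 t, w1 t, u1 t, hR n N κ S G hS _ f V hf _ (PT_mem hq t y0) _ (PT_mem hq t z0)
      _ (PT_mem hq t w0) _ (PT_mem hq t u0)]
  · intro h q hq t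
    have hq' := hq.1
    have key : ∀ w ∈ G.T q.1, ∀ w' ∈ G.T q.1, ⟪Rh G q t w, w'⟫ = ⟪Rh G q 0 w, w'⟫ := by
      intro w hw w' hw'
      obtain ⟨c, hc⟩ := h _ _ _ _ _ ((isGeodesicIn_iff hS G).2 ⟨q, hq', fun _ => rfl⟩)
        (parallel_PT hS hq' hw) (parallel_PT hS hq' hq'.2) (parallel_PT hS hq' hq'.2)
        (parallel_PT hS hq' hw')
      have h1 : ∀ s, ⟪Rh G q s w, w'⟫ = c := by
        intro s
        obtain ⟨f, V, hf⟩ := hS _ (fl_mem G hq' s).1
        rw [inner_Rh_eq hq' hw, ← hR n N κ S G hS _ f V hf _ (PT_mem hq' s hw) _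
          (PT_mem hq' s hq'.2) _ (PT_mem hq' s hq'.2) _ (PT_mem hq' s hw')]
        exact hc s f V hf
      rw [h1, h1]
    have h0 : Rh G q 0 = Rm G q := by
      ext1 w
      rw [Rh_apply, fl_zero, PT_zero, PTi_zero_apply]
      rfl
    rw [← h0]
    ext1 w
    refine ext_inner_right ℝ fun w' => ?_
    have h2 : ∀ s, ⟪Rh G q s w, w'⟫ = ⟪Rh G q s (G.P q.1 w), G.P q.1 w'⟫ := fun s => by
      rw [Rh_P hq', ← inner_P_left G hq'.1, (P_eq_self G hq'.1).1 (Rh_mem hq' s w)]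
    rw [h2, h2, key _ (P_mem G hq'.1) _ (P_mem G hq'.1)]

end Crest.Agent.N221
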