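import Crest.Agent.N221.Base

/-! Row 221: uniqueness of the unstable Riccati solution, `TauS`, `ToParS` (helper61). -/

set_option autoImplicit false
set_option maxHeartbeats 400000

open MeasureTheory Set Filter Topology
open scoped ContDiff RealInnerProductSpace ENNReal
open Crest.GeometryTopology.Submanifold
open Crest.Agent.R241.DDefs Crest.Agent.R241.D2
open Crest.Agent.R208.J Crest.Agent.R208.L

noncomputable section

namespace Crest.Agent.N221

variable {n N : ℕ} {a : ℝ} {S : Set (Euc N)} {G : Geo n N (-(a ^ 2)) S} {q : TT N}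

namespace Tau

/-- a bounded symmetric solution of `V' = -V² - R` on `Iic r` which is `≥ a` on `Vp` and kills
`Vpᗮ` -/
structure Good (G : Geo n N (-(a ^ 2)) S) (q : TT N) (r : ℝ) (R V : ℝ → Op N) : Prop where
  ric : ∀ t ≤ r, HasDerivAt V (-(V t ∘L V t) - R t) t
  symm : ∀ t ≤ r, ∀ x y, ⟪V t x, y⟫ = ⟪x, V t y⟫
  comp_Pv : ∀ t ≤ r, ∀ x, V t (Pv G q x) = V t x
  lower : ∀ t ≤ r, ∀ w ∈ Vp G q, a * ‖w‖ ^ 2 ≤ ⟪V t w, w⟫
  bdd : ∃ B, ∀ t ≤ r, ‖V t‖ ≤ B

variable {r : ℝ} {R V W : ℝ → Op N}

lemma Good.mono (h : Good G q r R V) {r' : ℝ} (hr : r' ≤ r) : Good G q r' R V :=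
  ⟨fun t ht => h.ric t (ht.trans hr), fun t ht => h.symm t (ht.trans hr),
    fun t ht => h.comp_Pv t (ht.trans hr), fun t ht => h.lower t (ht.trans hr),
    h.bdd.imp fun _ hB t ht => hB t (ht.trans hr)⟩

lemma Good.Pv_comp (h : Good G q r R V) (hq : q ∈ US G) {t : ℝ} (ht : t ≤ r) (x : Euc N) :
    Pv G q (V t x) = V t x := by
  refine ext_inner_right ℝ fun y => ?_
  rw [inner_Pv hq.1, h.symm t ht, h.comp_Pv t ht, h.symm t ht]

lemma Good.ext_ric (h : Good G q r R V) (hq : q ∈ US G) {t : ℝ} (ht : t ≤ r) :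
    HasDerivAt (fun t => V t + a • (ContinuousLinearMap.id ℝ (Euc N) - Pv G q))
      (-((V t + a • (ContinuousLinearMap.id ℝ (Euc N) - Pv G q)) ∘L
          (V t + a • (ContinuousLinearMap.id ℝ (Euc N) - Pv G q))) -
        (R t - a ^ 2 • (ContinuousLinearMap.id ℝ (Euc N) - Pv G q))) t := by
  refine ((h.ric t ht).add_const (a • (ContinuousLinearMap.id ℝ (Euc N) - Pv G q))).congr_deriv ?_
  ext1 x
  simp only [add_apply, smul_apply,
    sub_apply, ContinuousLinearMap.id_apply, neg_apply,
    ContinuousLinearMap.comp_apply, map_add, map_smul, map_sub, h.comp_Pv t ht, h.Pv_comp hq ht,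
    Pv_Pv hq]
  module

lemma Good.ext_symm (h : Good G q r R V) (hq : q ∈ US G) {t : ℝ} (ht : t ≤ r) (x y : Euc N) :
    ⟪(V t + a • (ContinuousLinearMap.id ℝ (Euc N) - Pv G q)) x, y⟫ =
      ⟪x, (V t + a • (ContinuousLinearMap.id ℝ (Euc N) - Pv G q)) y⟫ := by
  simp only [add_apply, smul_apply,
    sub_apply, ContinuousLinearMap.id_apply, inner_add_left, inner_add_right,
    inner_smul_left, inner_smul_right, inner_sub_left, inner_sub_right, conj_trivial,
    h.symm t ht, inner_Pv hq.1]

lemma Good.ext_lower (h : Good G q r R V) (hq : q ∈ US G) {t : ℝ} (ht : t ≤ r) (x : Euc N) :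
    a * ‖x‖ ^ 2 ≤ ⟪(V t + a • (ContinuousLinearMap.id ℝ (Euc N) - Pv G q)) x, x⟫ := by
  have h1 := h.lower t ht _ (Pv_mem hq.1 hq.2 x)
  have h2 : ⟪V t (Pv G q x), Pv G q x⟫ = ⟪V t x, x⟫ := by
    rw [h.comp_Pv t ht, h.symm t ht, h.comp_Pv t ht, h.symm t ht]
  have h3 : ⟪x - Pv G q x, x⟫ = ‖x - Pv G q x‖ ^ 2 := by
    have h4 : ⟪x - Pv G q x, Pv G q x⟫ = 0 := by
      rw [← inner_Pv hq.1, map_sub, Pv_Pv hq, sub_self, inner_zero_left]
    rw [← real_inner_self_eq_norm_sq, inner_sub_right, h4, sub_zero]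
  have h5 := norm_sq_Pv hq x
  simp only [add_apply, smul_apply,
    sub_apply, ContinuousLinearMap.id_apply, inner_add_left, inner_smul_left,
    h3, conj_trivial]
  rw [h2] at h1
  rw [h5, mul_add]
  linarith

/-- uniqueness of good solutions -/
lemma Good.unique (hR : RicS) (ha : 0 < a) (hq : q ∈ US G) (hc : ContinuousOn R (Iic r))
    (h : Good G q r R V) (h' : Good G q r R W) : V r = W r := by
  obtain ⟨B, hB⟩ := h.bdd
  obtain ⟨B', hB'⟩ := h'.bdd
  have key : ∀ s ≤ r,
      ‖V r - W r‖ ≤ Real.sqrt N * (Real.exp (-(2 * a * (r - s))) * (B + B')) := by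
    intro s hs
    have hc' : ContinuousOn (fun t => R t - a ^ 2 • (ContinuousLinearMap.id ℝ (Euc N) - Pv G q))
        (Icc s r) := (hc.mono Icc_subset_Iic_self).sub continuousOn_const
    have h1 := hR N a _ _ _ _ s r ha hs hc' hc' (fun u hu => h.ext_ric hq hu.2)
      (fun u hu => h'.ext_ric hq hu.2) (fun u hu => h.ext_symm hq hu.2)
      (fun u hu => h'.ext_symm hq hu.2) (fun u hu => h.ext_lower hq hu.2)
      (fun u hu => h'.ext_lower hq hu.2)
    simp only [add_sub_add_right_eq_sub, sub_self, norm_zero, mul_zero,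
      intervalIntegral.integral_zero, add_zero] at h1
    refine h1.trans ?_
    gcongr
    exact (norm_sub_le _ _).trans (add_le_add (hB s hs) (hB' s hs))
  have hl : Tendsto (fun s => Real.sqrt N * (Real.exp (-(2 * a * (r - s))) * (B + B'))) atBot
      (𝓝 (Real.sqrt N * (0 * (B + B')))) := by
    refine tendsto_const_nhds.mul (Tendsto.mul_const _ (Real.tendsto_exp_atBot.comp ?_))
    refine tendsto_neg_atTop_atBot.comp (Tendsto.const_mul_atTop (by positivity) ?_)
    exact (tendsto_atTop_add_const_left atBot r tendsto_neg_atBot_atTop).congr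
      fun s => (sub_eq_add_neg r s).symm
  have := ge_of_tendsto hl (eventually_atBot.2 ⟨r, key⟩)
  rw [zero_mul, mul_zero] at this
  exact sub_eq_zero.1 (norm_le_zero_iff.1 this)

lemma good_hat {F : TT N → Op N} (h : IsU G F) (hc : IsCompact S) (hq : q ∈ US G) (r : ℝ) :
    Good G q r (Rh G q) (hat G F q) := by
  obtain ⟨b, -, hb⟩ := h.exists_bound hc
  exact ⟨fun t _ => h.ric q hq t, fun t _ => h.hat_symm hq t, fun t _ => h.hat_Pv hq t,
    fun t _ _ hw => h.hat_lower hq t hw, b, fun t _ => (norm_hat F hq.1 t).trans (hb _ (fl_US hq t))⟩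

lemma Good.shift (h : Good G q r R V) (c : ℝ) :
    Good G q (r - c) (fun t => R (t + c)) fun t => V (t + c) :=
  ⟨fun t ht => (h.ric (t + c) (by linarith)).comp_add_const t c,
    fun t ht => h.symm (t + c) (by linarith), fun t ht => h.comp_Pv (t + c) (by linarith),
    fun t ht => h.lower (t + c) (by linarith),
    h.bdd.imp fun _ hB t ht => hB (t + c) (by linarith)⟩

end Tau

open Tau

/-- a bounded symmetric solution on `Iic r` of the Riccati equation along `q` which is `≥ a` on
`Vp` and kills `Vpᗮ` is the unstable one -/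
theorem IsU.eq_hat {F : TT N → Op N} (hR : RicS) (h : IsU G F) (ha : 0 < a) (hc : IsCompact S)
    (hq : q ∈ US G) {r : ℝ} {V : ℝ → Op N} (hV : Good G q r (Rh G q) V) {t : ℝ} (ht : t ≤ r) :
    V t = hat G F q t :=
  Good.unique hR ha hq (contDiff_Rh hq.1).continuous.continuousOn (hV.mono ht) (good_hat h hc hq t)

/-- uniqueness of the unstable Riccati field -/
theorem IsU.unique {F F' : TT N → Op N} (hR : RicS) (ha : 0 < a) (hc : IsCompact S)
    (h : IsU G F) (h' : IsU G F') : EqOn F F' (US G) := fun q hq => by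
  have := h'.eq_hat hR ha hc hq (good_hat h hc hq 0) le_rfl
  rwa [hat_zero, hat_zero] at this

theorem tauS (hR : RicS) (hU : UExS) : TauS := by
  intro n N a S G H hP q hq
  have h := hU n N a S G H
  have hRh : Rh G q = fun _ => Rm G q := funext (hP q hq)
  have h1 : ∀ t, hat G (U G) q t = U G q := fun t => by
    have g0 := good_hat h H.cpt hq 0
    have g1 := (good_hat h H.cpt hq t).shift t
    rw [hRh] at g0 g1
    rw [sub_self] at g1
    have := Good.unique hR H.a_pos hq continuousOn_const g1 g0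
    simpa only [zero_add, hat_zero] using this
  refine ⟨h1, ?_, fun t => ?_⟩
  · have h2 := h.ric q hq 0
    rw [h1 0, hP q hq 0, show hat G (U G) q = fun _ => U G q from funext h1] at h2
    have h3 := h2.unique (hasDerivAt_const _ _)
    rw [sub_eq_zero] at h3
    rw [← h3, neg_neg]
  · rw [tau, ← trace_hat (U G) hq.1 t, h1 t, tau]

theorem toParS (hU : UExS) : ToParS := by
  intro n N a S G H
  have h := hU n N a S G H
  refine ⟨fun hs q hq => ?_, fun hd q hq => ?_⟩
  · have h1 : ∀ t, hat G (U G) (rev q) t = hat G (U G) q (-t) := fun t => by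
      rw [hat_rev _ hq.1]
      unfold hat
      simp only [hs _ (fl_US hq (-t))]
    have h2 : ∀ t, hat G (U G) q t ∘L hat G (U G) q t + Rh G q t = 0 := fun t => by
      have e1 := h.ric (rev q) (rev_US hq) (-t)
      rw [h1, Rh_rev hq.1, neg_neg, show hat G (U G) (rev q) = fun s => hat G (U G) q (-s) from
        funext h1] at e1
      have e2 := (h.ric q hq t).scomp_of_eq (-t) (hasDerivAt_neg (-t)) (neg_neg t).symm
      have e3 := e1.unique e2
      ext1 x
      have e4 := congrArg (fun T : Op N => T x) e3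
      simp only [sub_apply, neg_apply, smul_apply] at e4
      rw [add_apply, zero_apply]
      linear_combination (norm := module) (-(1 / 2 : ℝ)) • e4
    have h3 : ∀ t, HasDerivAt (hat G (U G) q) 0 t := fun t => by
      refine (h.ric q hq t).congr_deriv ?_
      rw [← neg_add', h2, neg_zero]
    have h4 : ∀ t, hat G (U G) q t = hat G (U G) q 0 := fun t =>
      is_const_of_deriv_eq_zero (fun t => (h3 t).differentiableAt) (fun t => (h3 t).deriv) t 0
    intro t
    have e1 := h2 t
    have e2 := h2 0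
    rw [h4 t] at e1
    rw [Rh_eq_hat G q 0, hat_zero (Rm G)] at e2
    exact add_left_cancel (e1.trans e2.symm)
  · have h3 : ∀ s, HasDerivAt (Rh G q) 0 s := fun s => by
      have hz := fl_US hq s
      have e1 : HasDerivAt (Rh G (fl G (q, s))) 0 0 := by
        rw [← hd _ hz]
        exact ((contDiff_Rh hz.1).differentiable (by simp) 0).hasDerivAt
      have e2 : HasDerivAt (fun t => Rh G (fl G (q, s)) (t - s)) 0 s := by
        refine HasDerivAt.comp_sub_const s s ?_
        rwa [sub_self]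
      have e3 := (hasDerivAt_const s (PTi G q s)).clm_comp
        (e2.clm_comp (hasDerivAt_const s (PT G q s)))
      convert e3 using 1
      · funext t
        rw [Rh_eq_hat, Rh_eq_hat, ← hat_add _ hq.1, add_sub_cancel]
      · simp
    intro t
    rw [is_const_of_deriv_eq_zero (fun t => (h3 t).differentiableAt) (fun t => (h3 t).deriv) t 0,
      Rh_eq_hat, hat_zero]

end Crest.Agent.N221
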